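import Mathlib
import Vale.Agent.P201.Base
import Vale.Agent.P201.Residue

/-!
Coefficient rigidity of zero divisors in group algebras of torsion-free groups.
-/

open MonoidAlgebra

namespace Vale.Agent.Results.P201.CoefficientRigidity

open Vale.Agent.P201

theorem maxSet_antipode_card {K : Type*} [Field K] {G : Type*} [Group G]
    {Γ₀ : Type*} [LinearOrderedCommGroupWithZero Γ₀] (v : Valuation K Γ₀)
    (β : MonoidAlgebra K G) : (maxSet v (antipode β)).card = (maxSet v β).card := by
  classical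
  have hsupp : ∀ g, g⁻¹ ∈ (antipode β).coeff.support ↔ g ∈ β.coeff.support := fun g => by
    simp [antipode_coeff]
  have hmap : maxSet v (antipode β) = (maxSet v β).image (fun g => g⁻¹) := by
    ext g
    obtain ⟨g, rfl⟩ := inv_surjective g
    simp only [Finset.mem_image, inv_inj, exists_eq_right, mem_maxSet, hsupp]
    refine and_congr_right fun _ => ?_
    constructor
    · intro h k hk
      have := h k⁻¹ ((hsupp k).2 hk)
      rwa [antipode_coeff, antipode_coeff] at this
    · intro h k hk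
      obtain ⟨k, rfl⟩ := inv_surjective k
      rw [antipode_coeff, antipode_coeff]
      exact h k ((hsupp k).1 hk)
  rw [hmap, Finset.card_image_of_injective _ inv_injective]

theorem result {G : Type*} [Group G] (htf : ∀ g : G, IsOfFinOrder g → g = 1)
    {K : Type*} [Field K] (α β : MonoidAlgebra K G) (hα : α ≠ 0) (hβ : β ≠ 0)
    (h : α * β = 0) :
    (∀ {Γ₀ : Type*} [LinearOrderedCommGroupWithZero Γ₀] (v : Valuation K Γ₀),
      3 ≤ Set.ncard {g | g ∈ α.coeff.support ∧
          ∀ k ∈ α.coeff.support, v (α.coeff k) ≤ v (α.coeff g)} ∧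
      3 ≤ Set.ncard {g | g ∈ β.coeff.support ∧
          ∀ k ∈ β.coeff.support, v (β.coeff k) ≤ v (β.coeff g)} ∧
      ¬ NoZeroDivisors (MonoidAlgebra (IsLocalRing.ResidueField v.valuationSubring)
        (Subgroup.closure {t : G | ∃ g k,
          (g ∈ α.coeff.support ∧ ∀ l ∈ α.coeff.support, v (α.coeff l) ≤ v (α.coeff g)) ∧
          (k ∈ α.coeff.support ∧ ∀ l ∈ α.coeff.support, v (α.coeff l) ≤ v (α.coeff k)) ∧
          t = g⁻¹ * k}))) ∧
    (∀ x y : G, IsIntegral (Subring.closure ((fun g => α.coeff g) ''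
        {g | g ∈ α.coeff.support ∧ g ≠ x ∧ g ≠ y})) (α.coeff x)) ∧
    (α.coeff.support.card = 3 → ∀ x ∈ α.coeff.support, ∀ z ∈ α.coeff.support,
      IsIntegral ℤ (α.coeff x / α.coeff z)) := by
  classical
  refine ⟨?_, fun x y => isIntegral_coeff htf hα hβ h,
    fun hc x hx z hz => isIntegral_ratio htf hα hβ h hc hx hz⟩
  intro Γ₀ _ v
  have hset : ∀ γ : MonoidAlgebra K G,
      {g | g ∈ γ.coeff.support ∧ ∀ k ∈ γ.coeff.support, v (γ.coeff k) ≤ v (γ.coeff g)}
        = (maxSet v γ : Set G) := by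
    intro γ
    ext g
    simp only [Set.mem_ofPred_eq, Finset.mem_coe, mem_maxSet]
  refine ⟨?_, ?_, ?_⟩
  · rw [hset, Set.ncard_coe_finset]
    exact maxSet_card_ge_three htf v hα hβ h
  · rw [hset, Set.ncard_coe_finset, ← maxSet_antipode_card]
    refine maxSet_card_ge_three htf v (antipode_ne_zero hβ) (antipode_ne_zero hα) ?_
    rw [← antipode_mul, h, antipode_zero]
  · obtain ⟨a, b, ha, hb, hab, hsa, -⟩ := exists_residual v hα hβ h
    obtain ⟨g₀, hg₀⟩ : (maxSet v α).Nonempty := by
      rw [← hsa, Finsupp.support_nonempty_iff]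
      simpa using ha
    refine not_noZeroDivisors_of_support (g₀ := g₀) ?_ ha hb hab
    intro k hk
    rw [hsa] at hk
    exact Subgroup.subset_closure ⟨g₀, k, mem_maxSet.1 hg₀, mem_maxSet.1 hk, rfl⟩

end Vale.Agent.Results.P201.CoefficientRigidity
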