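import Mathlib
import Vale.Agent.P201.Extension

/-!
Kaplansky's zero-divisor conjecture for free solvable extensions of LEF-by-unique-product groups.
-/

namespace Vale.Agent.Results.P201.FreePresentations

open Vale.Agent.P201

theorem isOfFinOrder_eq_one {G : Type*} [Group G] (K : Type*) [Field K]
    [NoZeroDivisors (MonoidAlgebra K G)] (g : G) (hg : IsOfFinOrder g) : g = 1 := by
  classical
  by_contra hne
  let x : MonoidAlgebra K G := MonoidAlgebra.single g 1
  have hx : x ^ orderOf g = 1 := by
    simp [x, MonoidAlgebra.single_pow, pow_orderOf_eq_one, MonoidAlgebra.one_def]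
  have h0 := geom_sum_mul x (orderOf g)
  rw [hx, sub_self] at h0
  rcases mul_eq_zero.1 h0 with h | h
  · have h1 := congrArg (fun z : MonoidAlgebra K G => z.coeff 1) h
    simp only [x, MonoidAlgebra.single_pow, one_pow, MonoidAlgebra.coeff_sum,
      MonoidAlgebra.coeff_single, Finsupp.finsetSum_apply, MonoidAlgebra.coeff_zero,
      Finsupp.zero_apply] at h1
    rw [Finset.sum_eq_single 0] at h1
    · simp at h1
    · intro b hb hb0
      have : g ^ b ≠ 1 := by
        intro hb1
        have := orderOf_dvd_of_pow_eq_one hb1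
        have := Nat.le_of_dvd (Nat.pos_of_ne_zero hb0) this
        rw [Finset.mem_range] at hb
        omega
      simp [this]
    · intro h2
      exact absurd (Finset.mem_range.2 (orderOf_pos_iff.2 hg)) h2
  · apply hne
    have h1 := congrArg (fun z : MonoidAlgebra K G => z.coeff g) h
    simp [x, MonoidAlgebra.one_def, Ne.symm hne] at h1

theorem result {X : Type*} (R P : Subgroup (FreeGroup X)) [R.Normal] [P.Normal] (hRP : R ≤ P)
    [UniqueProds (FreeGroup X ⧸ P)]
    (hLEF : ∀ S : Finset (P ⧸ R.subgroupOf P), ∃ (n : ℕ) (φ : P ⧸ R.subgroupOf P →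
      Equiv.Perm (Fin n)), Set.InjOn φ S ∧
        ∀ a ∈ S, ∀ b ∈ S, a * b ∈ S → φ (a * b) = φ a * φ b)
    (k : ℕ) :
    (∀ g : FreeGroup X ⧸ (derivedSeries R (k + 1)).map R.subtype, IsOfFinOrder g → g = 1) ∧
    ∀ (K : Type*) [Field K], NoZeroDivisors
      (MonoidAlgebra K (FreeGroup X ⧸ (derivedSeries R (k + 1)).map R.subtype)) := by
  refine ⟨fun g hg => ?_, fun K _ => noZeroDivisors_of_lef_by_uniqueProds R P hRP hLEF k K⟩
  have := noZeroDivisors_of_lef_by_uniqueProds R P hRP hLEF k ℚ
  exact isOfFinOrder_eq_one ℚ g hg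

end Vale.Agent.Results.P201.FreePresentations
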